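import Vale.Agent.P243.Covering

/-!
# Cylinder coverings: the bound one third is not sharp
-/

namespace Vale.Agent.Results.P243.AboveOneThird

open MeasureTheory Set Metric Vale.Agent.P243
open scoped RealInnerProductSpace ENNReal

/-- There is an absolute `δ > 0` such that in every covering of a convex body in `ℝ³` by finitely
many cylinders the base areas divided by the projection areas in the same directions sum to at
least `1/3 + δ`; consequently the base areas sum to at least `(1/3 + δ)` times any common lower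
bound of all projection areas of the body. -/
theorem result : ∃ δ : ℝ, 0 < δ ∧
    ∀ (K : Set (EuclideanSpace ℝ (Fin 3))), IsCompact K → Convex ℝ K → (interior K).Nonempty →
    ∀ (m : ℕ) (u : Fin m → EuclideanSpace ℝ (Fin 3))
      (e : Fin m → EuclideanSpace ℝ (Fin 2) →ₗᵢ[ℝ] EuclideanSpace ℝ (Fin 3))
      (B : Fin m → Set (EuclideanSpace ℝ (Fin 2))),
      (∀ i, ‖u i‖ = 1) → (∀ i y, ⟪e i y, u i⟫ = 0) →
      K ⊆ ⋃ i, {x | ∃ y ∈ B i, ∃ t : ℝ, x = e i y + t • u i} →
      ENNReal.ofReal (1 / 3 + δ) ≤ ∑ i, volume (B i) / volume {y | ∃ t : ℝ, e i y + t • u i ∈ K} ∧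
      ∀ A : ℝ≥0∞, (∀ i, A ≤ volume {y | ∃ t : ℝ, e i y + t • u i ∈ K}) →
        ENNReal.ofReal (1 / 3 + δ) * A ≤ ∑ i, volume (B i) := by
  obtain ⟨δ, hδ, hmain⟩ := normalised_bound
  refine ⟨δ, hδ, fun K hK hKc hne m u e B hu hperp hcov => ?_⟩
  obtain ⟨M, c₀, hin, hout⟩ := exists_normalisation K hK hKc hne
  set T : E3 → E3 := fun x => c₀ + M x with hT
  have hKimg : IsCompact (T '' K) := hK.image (continuous_const.add M.continuous)
  have hKimgc : Convex ℝ (T '' K) := by
    have h : T '' K = (fun x => c₀ + x) '' (M.toLinearEquiv.toLinearMap '' K) := by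
      rw [Set.image_image]
      rfl
    rw [h]
    exact (hKc.linear_image M.toLinearEquiv.toLinearMap).translate c₀
  have hMu : ∀ i, 0 < ‖M (u i)‖ := fun i => norm_pos_iff.mpr fun h => by
    have h1 : u i = 0 := M.injective (by rw [h, map_zero])
    have h2 := hu i
    rw [h1, norm_zero] at h2
    exact zero_ne_one h2
  let g : Fin m → (E2 × ℝ →ₗ[ℝ] E3) := fun i =>
    M.toLinearEquiv.toLinearMap.comp
      ((e i).toLinearMap.coprod (LinearMap.toSpanSingleton ℝ E3 (‖M (u i)‖⁻¹ • u i)))
  have hg : ∀ i q, g i q = M (e i q.1 + (q.2 * ‖M (u i)‖⁻¹) • u i) := fun i q => by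
    simp [g, LinearMap.coprod_apply, smul_smul, LinearMap.toSpanSingleton_apply]
  have hinj : ∀ i, Function.Injective (g i) := by
    intro i
    rw [injective_iff_map_eq_zero]
    intro q hq
    rw [hg] at hq
    have h1 : e i q.1 + (q.2 * ‖M (u i)‖⁻¹) • u i = 0 := M.injective (by rw [hq, map_zero])
    have h2 := congrArg (fun z => ⟪z, u i⟫) h1
    simp only [inner_add_left, real_inner_smul_left, hperp, real_inner_self_eq_norm_sq, hu,
      inner_zero_left, zero_add, one_pow, mul_one] at h2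
    have h3 : q.2 = 0 := by
      rcases mul_eq_zero.mp h2 with h | h
      · exact h
      · exact absurd (inv_eq_zero.mp h) (hMu i).ne'
    rw [h3, zero_mul, zero_smul, add_zero] at h1
    have h4 : q.1 = 0 := (e i).injective (by rw [h1, map_zero])
    exact Prod.ext h4 h3
  let Φ : Fin m → Frame := fun i =>
    { lin := (LinearMap.linearEquivOfInjective (g i) (hinj i) (by simp)).toContinuousLinearEquiv
      shift := c₀
      unit := by
        show ‖g i (0, 1)‖ = 1
        rw [hg]
        simp [norm_smul, (hMu i).ne'] }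
  have hpt : ∀ i y s, (Φ i).pt (y, s) = T (e i y + (s * ‖M (u i)‖⁻¹) • u i) := fun i y s => by
    show c₀ + g i (y, s) = _
    rw [hg]
  have hTinj : Function.Injective T := (add_right_injective c₀).comp M.injective
  have hshadow : ∀ i, (Φ i).shadow (T '' K) = {y | ∃ t : ℝ, e i y + t • u i ∈ K} := by
    intro i
    ext y
    constructor
    · rintro ⟨s, hs⟩
      change (Φ i).pt (y, s) ∈ T '' K at hs
      rw [hpt, hTinj.mem_set_image] at hs
      exact ⟨_, hs⟩
    · rintro ⟨t, ht⟩
      refine ⟨t * ‖M (u i)‖, ?_⟩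
      show (Φ i).pt (y, t * ‖M (u i)‖) ∈ T '' K
      rw [hpt, hTinj.mem_set_image, mul_inv_cancel_right₀ (hMu i).ne']
      exact ht
  have hcov' : T '' K ⊆ ⋃ i, (Φ i).cyl (toMeasurable volume (B i)) := by
    rintro _ ⟨x, hx, rfl⟩
    obtain ⟨i, y, hy, t, rfl⟩ := Set.mem_iUnion.mp (hcov hx)
    refine Set.mem_iUnion.mpr ⟨i, (y, t * ‖M (u i)‖),
      ⟨subset_toMeasurable volume (B i) hy, Set.mem_univ _⟩, ?_⟩
    rw [hpt, mul_inv_cancel_right₀ (hMu i).ne']
  have h := hmain (T '' K) hKimg hKimgc hin hout m Φ _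
    (fun i => measurableSet_toMeasurable _ _) hcov'
  simp only [measure_toMeasurable, hshadow] at h
  refine ⟨h, fun A hA => ?_⟩
  calc ENNReal.ofReal (1 / 3 + δ) * A
      ≤ (∑ i, volume (B i) / volume {y | ∃ t : ℝ, e i y + t • u i ∈ K}) * A :=
        mul_le_mul_left h _
    _ = ∑ i, volume (B i) / volume {y | ∃ t : ℝ, e i y + t • u i ∈ K} * A := Finset.sum_mul ..
    _ ≤ _ := Finset.sum_le_sum fun i _ =>
        (mul_le_mul_right (hA i) _).trans (by rw [mul_comm]; exact ENNReal.mul_div_le)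

end Vale.Agent.Results.P243.AboveOneThird
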