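import Vale.Agent.P243.Coplanar.Final

/-!
# Bang's half-area inequality for cylinders with axes parallel to one plane
-/

open MeasureTheory Set Vale.Agent.P243.Coplanar
open scoped RealInnerProductSpace ENNReal

/-- For every convex body, a covering by cylinders with axes parallel to one plane, or by at most
two cylinders, has base areas summing to at least half of every lower bound of the shadows. -/
theorem Vale.Agent.Results.P243.CoplanarAxes.result :
    ∀ (K : Set (EuclideanSpace ℝ (Fin 3))), IsCompact K → Convex ℝ K → (interior K).Nonempty →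
    ∀ (m : ℕ) (u : Fin m → EuclideanSpace ℝ (Fin 3))
      (e : Fin m → EuclideanSpace ℝ (Fin 2) →ₗᵢ[ℝ] EuclideanSpace ℝ (Fin 3))
      (B : Fin m → Set (EuclideanSpace ℝ (Fin 2))),
      (∀ i, ‖u i‖ = 1) → (∀ i y, ⟪e i y, u i⟫ = 0) →
      (m ≤ 2 ∨ ∃ w : EuclideanSpace ℝ (Fin 3), w ≠ 0 ∧ ∀ i, ⟪u i, w⟫ = 0) →
      K ⊆ ⋃ i, {x | ∃ y ∈ B i, ∃ t : ℝ, x = e i y + t • u i} →
      ∀ A : ℝ≥0∞, (∀ (v : EuclideanSpace ℝ (Fin 3))
          (f : EuclideanSpace ℝ (Fin 2) →ₗᵢ[ℝ] EuclideanSpace ℝ (Fin 3)),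
          ‖v‖ = 1 → (∀ y, ⟪f y, v⟫ = 0) → A ≤ volume {y | ∃ t : ℝ, f y + t • v ∈ K}) →
        ENNReal.ofReal (1 / 2) * A ≤ ∑ i, volume (B i) := by
  intro K hK hKc hne m u e B hu he hw hcov A hA
  obtain ⟨w, hw0, huw⟩ := hw.elim (fun hm => exists_normal hm u) id
  exact coplanar_half K hK hKc hne w hw0 m u e B hu he huw hcov A hA
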