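import Vale.Agent.P243.RelCoverage

/-!
# A covering of directionwise relative area below one half

The regular tetrahedron is covered by eight cylinders whose base areas, each divided by the area
of the projection in the same direction, sum to at most 255/512.
-/

namespace Vale.Agent.Results.P243.RelativeAreaCounterexample

open MeasureTheory Set Vale.Agent.P243.RelArea
open scoped RealInnerProductSpace ENNReal

/-- The coordinates, in the isometric chart `e` of the plane orthogonal to the axis `u`, of the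
orthogonal projection of `K` onto that plane. -/
def shadow (K : Set E3) (e : E2 →ₗᵢ[ℝ] E3) (u : E3) : Set E2 :=
  {y | ∃ t : ℝ, e y + t • u ∈ K}

/-- The cylinder with axis `u` and base `B`, given in the chart `e`. -/
def cylinder (B : Set E2) (e : E2 →ₗᵢ[ℝ] E3) (u : E3) : Set E3 :=
  {x | ∃ y ∈ B, ∃ t : ℝ, x = e y + t • u}

/-- The directionwise relative area of finitely many cylinders with respect to `K`. -/
noncomputable def relArea {m : ℕ} (K : Set E3) (B : Fin m → Set E2)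
    (e : Fin m → E2 →ₗᵢ[ℝ] E3) (u : Fin m → E3) : ℝ≥0∞ :=
  ∑ i, volume (B i) / volume (shadow K (e i) (u i))

/-- There are a convex body in three-space and a finite covering of it by cylinders with measurable
bases of finite area, all shadows of positive finite area, such that the ratios of base area to
shadow area sum to at most `255/512`, hence to less than one half. -/
theorem result : ∃ K : Set E3,
    IsCompact K ∧ Convex ℝ K ∧ (interior K).Nonempty ∧
    ∃ (m : ℕ) (u : Fin m → E3) (e : Fin m → E2 →ₗᵢ[ℝ] E3) (B : Fin m → Set E2),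
      (∀ i, ‖u i‖ = 1) ∧ (∀ i y, ⟪e i y, u i⟫ = 0) ∧
      (∀ i, MeasurableSet (B i) ∧ volume (B i) < ⊤ ∧
        0 < volume (shadow K (e i) (u i)) ∧ volume (shadow K (e i) (u i)) < ⊤) ∧
      K ⊆ (⋃ i, cylinder (B i) (e i) (u i)) ∧
      relArea K B e u ≤ ENNReal.ofReal (255 / 512) ∧
      relArea K B e u < ENNReal.ofReal (1 / 2) := by
  obtain ⟨G0, g0⟩ := good_cap 1 (Or.inl rfl)
  obtain ⟨G1, g1⟩ := good_cap (-1) (Or.inr rfl)
  obtain ⟨G2, g2⟩ := good_belt _ _ (Or.inl rfl)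
  obtain ⟨G3, g3⟩ := good_belt _ _ (Or.inr rfl)
  obtain ⟨G4, g4⟩ := good_corner _ _ _ _ (Or.inl ⟨rfl, rfl⟩)
  obtain ⟨G5, g5⟩ := good_corner _ _ _ _ (Or.inr (Or.inl ⟨rfl, rfl⟩))
  obtain ⟨G6, g6⟩ := good_corner _ _ _ _ (Or.inr (Or.inr (Or.inl ⟨rfl, rfl⟩)))
  obtain ⟨G7, g7⟩ := good_corner _ _ _ _ (Or.inr (Or.inr (Or.inr ⟨rfl, rfl⟩)))
  set cB := band (11/16 : ℝ) 1 (-1) 1 1 (-1)
  set cS := band (-1 : ℝ) 1 (-1) 1 1 (-1)
  set bB := band (0 : ℝ) (11/16) (-(5/8)) 0 (5/8) 0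
  set bS := band (-1 : ℝ) 1 (-2) 1 2 (-1)
  set tB := band (-1 : ℝ) (-(1/4)) (5/8) 1 (5/24) (-(2/3))
  set tS := band (-1 : ℝ) 3 (-(3/2)) (1/2) (3/2) (-(1/2))
  let F : Fin 8 → Triple := ![G0, G1, G2, G3, G4, G5, G6, G7]
  let S : Fin 8 → Set (ℝ × ℝ) := ![cB, cB, bB, bB, tB, tB, tB, tB]
  let Sh : Fin 8 → Set (ℝ × ℝ) := ![cS, cS, bS, bS, tS, tS, tS, tS]
  let β : Fin 8 → ℝ := ![25/256, 25/256, 55/64, 55/64, 15/32, 15/32, 15/32, 15/32]
  let σ : Fin 8 → ℝ := ![4, 4, 8, 8, 8, 8, 8, 8]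
  have hgood : ∀ i, ∃ a b, Good (F i) a b (S i) (Sh i) (β i) (σ i) := by
    intro i
    fin_cases i
    exacts [⟨_, _, g0⟩, ⟨_, _, g1⟩, ⟨_, _, g2⟩, ⟨_, _, g3⟩, ⟨_, _, g4⟩, ⟨_, _, g5⟩, ⟨_, _, g6⟩,
      ⟨_, _, g7⟩]
  have hlift : ∀ i, ∀ q ∈ Sh i, ∃ p ∈ tetra, (⟪(F i).a, p⟫, ⟪(F i).b, p⟫) = q := by
    intro i
    obtain ⟨a, b, ha, hb, -, -, -, -, -, h⟩ := hgood i
    rw [ha, hb]
    exact h
  have hpos : ∀ i, 0 < volume {y | ∃ t : ℝ, (F i).e y + t • (F i).u ∈ tetra} := by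
    intro i
    obtain ⟨a, b, -, -, -, hSh, -, hσ, hσ0, -⟩ := hgood i
    refine lt_of_lt_of_le ?_ (measure_mono ((F i).pre_subset_shadow (hlift i)))
    rw [volume_pre (F i).ha (F i).hb hSh, hσ]
    exact ENNReal.mul_pos (ENNReal.ofReal_pos.2 (inv_pos.2 (mul_pos (F i).ha (F i).hb))).ne'
      (ENNReal.ofReal_pos.2 hσ0).ne'
  have hfin : ∀ i, volume {y | ∃ t : ℝ, (F i).e y + t • (F i).u ∈ tetra} < ⊤ := by
    intro i
    obtain ⟨R, hR⟩ := tetra_isCompact.isBounded.subset_closedBall 0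
    refine lt_of_le_of_lt (measure_mono ?_) (measure_closedBall_lt_top (x := (0 : E2)) (r := R))
    rintro y ⟨t, ht⟩
    have h1 := hR ht
    simp only [Metric.mem_closedBall, dist_zero_right] at h1 ⊢
    refine le_trans ?_ h1
    have h2 : ⟪(F i).e y, t • (F i).u⟫ = 0 := by
      rw [real_inner_smul_right, (F i).perp, mul_zero]
    have h3 := norm_add_sq_real ((F i).e y) (t • (F i).u)
    rw [h2, LinearIsometry.norm_map] at h3
    nlinarith [norm_nonneg y, norm_nonneg ((F i).e y + t • (F i).u),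
      sq_nonneg ‖t • (F i).u‖]
  refine ⟨tetra, tetra_isCompact, tetra_convex, tetra_interior, 8, fun i => (F i).u,
    fun i => (F i).e, fun i => pre ‖(F i).a‖ ‖(F i).b‖ (S i), fun i => (F i).norm_u,
    fun i => (F i).perp, fun i => ⟨?_, ?_, hpos i, hfin i⟩, ?_, ?_⟩
  · obtain ⟨a, b, -, -, hS, -⟩ := hgood i
    exact hS.preimage (by fun_prop)
  · obtain ⟨a, b, -, -, hS, -, hβ, -⟩ := hgood i
    rw [volume_pre (F i).ha (F i).hb hS, hβ, ← ENNReal.ofReal_mul
      (inv_nonneg.2 (mul_pos (F i).ha (F i).hb).le)]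
    exact ENNReal.ofReal_lt_top
  · intro p hp
    have key : ∃ i, (⟪(F i).a, p⟫, ⟪(F i).b, p⟫) ∈ S i := by
      rcases cases_cover p hp with h | h | h | h | h | h | h | h
      · exact ⟨0, by rw [show (F 0).a = _ from g0.1, show (F 0).b = _ from g0.2.1]; exact h⟩
      · exact ⟨1, by rw [show (F 1).a = _ from g1.1, show (F 1).b = _ from g1.2.1]; exact h⟩
      · exact ⟨2, by rw [show (F 2).a = _ from g2.1, show (F 2).b = _ from g2.2.1]; exact h⟩
      · exact ⟨3, by rw [show (F 3).a = _ from g3.1, show (F 3).b = _ from g3.2.1]; exact h⟩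
      · exact ⟨4, by rw [show (F 4).a = _ from g4.1, show (F 4).b = _ from g4.2.1]; exact h⟩
      · exact ⟨5, by rw [show (F 5).a = _ from g5.1, show (F 5).b = _ from g5.2.1]; exact h⟩
      · exact ⟨6, by rw [show (F 6).a = _ from g6.1, show (F 6).b = _ from g6.2.1]; exact h⟩
      · exact ⟨7, by rw [show (F 7).a = _ from g7.1, show (F 7).b = _ from g7.2.1]; exact h⟩
    obtain ⟨i, hi⟩ := key
    exact mem_iUnion.2 ⟨i, (F i).exists_eq p hi⟩
  · have hle : ∑ i, volume (pre ‖(F i).a‖ ‖(F i).b‖ (S i)) /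
        volume {y | ∃ t : ℝ, (F i).e y + t • (F i).u ∈ tetra}
          ≤ ∑ i, ENNReal.ofReal (β i / σ i) :=
      Finset.sum_le_sum fun i _ => by
        obtain ⟨a, b, -, -, hS, hSh, hβ, hσ, hσ0, -⟩ := hgood i
        exact (F i).ratio_le hS hSh hβ hσ hσ0 (hlift i)
    have hsum : ∑ i, ENNReal.ofReal (β i / σ i) = ENNReal.ofReal (255 / 512) := by
      rw [← ENNReal.ofReal_sum_of_nonneg (fun i _ => by fin_cases i <;> simp [β, σ] <;> norm_num)]
      congr 1
      simp [β, σ, Fin.sum_univ_eight]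
      norm_num
    rw [hsum] at hle
    exact ⟨hle, hle.trans_lt ((ENNReal.ofReal_lt_ofReal_iff (by norm_num)).2 (by norm_num))⟩

end Vale.Agent.Results.P243.RelativeAreaCounterexample
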