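import Vale.Agent.P243.Half.Defs
import Vale.Agent.P243.Half.Shadow
import Vale.Agent.P243.SymmetricRel

/-!
# Bang's half-area inequality for centrally symmetric bodies
-/

namespace Vale.Agent.Results.P243.SymmetricHalfArea

open MeasureTheory Set Real Vale.Agent.P243.Half
open scoped RealInnerProductSpace ENNReal

/-- In every covering of a centrally symmetric convex body in `ℝ³` by finitely many cylinders the
base areas sum to at least `π √(√2 - 1) / 4 > 1/2` times the smallest projection area, and the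
base areas divided by the projection areas in the same directions sum to at least `5/12`. -/
theorem result : (1 / 2 : ℝ) < π * √(√2 - 1) / 4 ∧
    ∀ (K : Set R3), IsCompact K → Convex ℝ K → (interior K).Nonempty →
    ∀ c : R3, (∀ x ∈ K, (2 : ℝ) • c - x ∈ K) →
    ∀ (m : ℕ) (u : Fin m → R3) (e : Fin m → R2 →ₗᵢ[ℝ] R3) (B : Fin m → Set R2),
      (∀ i, ‖u i‖ = 1) → (∀ i y, ⟪e i y, u i⟫ = 0) →
      K ⊆ ⋃ i, cylinder (B i) (e i) (u i) →
      (∀ A : ℝ≥0∞, (∀ (v : R3) (f : R2 →ₗᵢ[ℝ] R3),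
          ‖v‖ = 1 → (∀ y, ⟪f y, v⟫ = 0) → A ≤ volume (shadow K f v)) →
        ENNReal.ofReal (π * √(√2 - 1) / 4) * A ≤ ∑ i, volume (B i)) ∧
      ENNReal.ofReal (5 / 12) ≤ ∑ i, volume (B i) / volume (shadow K (e i) (u i)) := by
  refine ⟨?_, fun K hK hKc hne c hsym m u e B hu he hcov => ⟨fun A hA =>
    half_bound hK hKc hne c hsym m u e B hu he hcov A hA,
    (Vale.Agent.P243.SymmetricRel.relative_bound K hK hKc hne c hsym m u e B hu he hcov).1⟩⟩
  have h2 : (141 / 100 : ℝ) ≤ √2 := Real.le_sqrt_of_sq_le (by norm_num)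
  have h3 : (64 / 100 : ℝ) ≤ √(√2 - 1) := Real.le_sqrt_of_sq_le (by linarith)
  nlinarith [pi_gt_d4]

end Vale.Agent.Results.P243.SymmetricHalfArea
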